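import Vale.Agent.P216RS.Step
import Vale.Agent.P216DC.Defs
import Vale.Agent.P216B.Mid

/-!
# P216RS: a ball with `sec ≥ -r⁻²` and volume ratio `w` contains a ball of radius `θ(w) r` with a
universal volume ratio
-/

open scoped Manifold ContDiff Topology ENNReal
open Set MeasureTheory Filter

set_option maxSynthPendingDepth 3

noncomputable section

namespace Vale.Agent.P216RS

open Vale.Agent.P216R Vale.Agent.P216DC

/-- metric balls are neighbourhoods of their centres -/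
def NB : Prop :=
  ∀ (M : Type) [TopologicalSpace M] [ChartedSpace E3 M] [IsManifold 𝓘(ℝ, E3) ∞ M]
    (g : Ten E3 M) (U : Set M), Met g U → Hs U → ∀ p ∈ U, ∀ r > 0, bl g U p r ∈ 𝓝 p

/-- existence of minimising geodesics -/
def HR : Prop :=
  ∀ (M : Type) [TopologicalSpace M] [ChartedSpace E3 M] [IsManifold 𝓘(ℝ, E3) ∞ M]
    (g : Ten E3 M) (U : Set M) (x : M) (R : ℝ), Met g U → Hs U → Cpt g U x R →
    ∀ y ∈ bl g U x R, ∃ γ, MinGeo g U γ (dd g U x y) ∧ γ 0 = x ∧ γ (dd g U x y) = y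

/-- hinge comparison -/
def HINGE : Prop :=
  ∀ (M : Type) [TopologicalSpace M] [ChartedSpace E3 M] [IsManifold 𝓘(ℝ, E3) ∞ M]
    (g : Ten E3 M) (U : Set M) (q : M) (R k : ℝ), Met g U → Hs U → Cpt g U q R → 0 < k →
    (∀ y ∈ bl g U q R, SecGe g y (-k ^ 2)) → ∀ (c₁ c₂ : ℝ → M) (L₁ L₂ : ℝ), MinGeo g U c₁ L₁ →
    MinGeo g U c₂ L₂ → c₁ 0 = q → c₂ 0 = q → L₁ ≤ R / 4 → L₂ ≤ R / 4 →
    Real.cosh (k * dd g U (c₁ L₁) (c₂ L₂)) ≤ Real.cosh (k * L₁) * Real.cosh (k * L₂) -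
      Real.sinh (k * L₁) * Real.sinh (k * L₂) * g q (vel E3 c₁ 0) (vel E3 c₂ 0)

/-- volume comparison for concentric balls -/
def BG (K : ℝ) : Prop :=
  ∀ (M : Type) [TopologicalSpace M] [ChartedSpace E3 M] [IsManifold 𝓘(ℝ, E3) ∞ M]
    [MeasurableSpace M] [BorelSpace M] (g : Ten E3 M) (U : Set M) (x : M) (R k : ℝ),
    Met g U → Hs U → x ∈ U → Cpt g U x R → 0 < k → k * R ≤ 1 →
    (∀ y ∈ bl g U x R, SecGe g y (-k ^ 2)) → ∀ s t, 0 < s → s ≤ t → t ≤ R →
    (∀ w, Vl w g U x t → Vl (w / K) g U x s) ∧ vol g (bl g U x s) ≤ ENNReal.ofReal (K * s ^ 3)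

/-- the image of a ball under a map with `1`-Lipschitz components -/
def LIP (C : ℝ) : Prop :=
  ∀ (M : Type) [TopologicalSpace M] [ChartedSpace E3 M] [IsManifold 𝓘(ℝ, E3) ∞ M]
    [MeasurableSpace M] [BorelSpace M] (g : Ten E3 M) (U : Set M) (y : M) (ρ : ℝ),
    Met g U → Hs U → IsCompact (cbl g U y ρ) → ∀ F : M → Fin 3 → ℝ,
    (∀ a ∈ bl g U y ρ, ∀ b ∈ bl g U y ρ, ∀ i, |F a i - F b i| ≤ dd g U a b) →
    volume (F '' bl g U y ρ) ≤ ENNReal.ofReal C * vol g (bl g U y ρ)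

/-- the reset lemma -/
def RESET : Prop :=
  ∃ w₁ > 0, ∀ w > 0, ∃ θ > 0, θ ≤ 1 / 20 ∧
    ∀ (M : Type) [TopologicalSpace M] [ChartedSpace E3 M] [IsManifold 𝓘(ℝ, E3) ∞ M]
      [MeasurableSpace M] [BorelSpace M] (g : Ten E3 M) (U : Set M) (x : M) (r : ℝ),
      Met g U → Hs U → 0 < r → Cpt g U x r → (∀ y ∈ bl g U x r, SecGe g y (-(1 / r ^ 2))) →
      Vl w g U x r → ∃ y ∈ bl g U x (r / 20), ∀ s, 0 < s → s ≤ θ * r → Vl w₁ g U y s

theorem t1_of_cosh {d s l β : ℝ} (hs : 0 ≤ s) (hs1 : s ≤ 1) (hl : 0 < l) (hl1 : l ≤ 1)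
    (hβ : |β| ≤ 1) (h : Real.cosh d ≤ Real.cosh s * Real.cosh l - Real.sinh s * Real.sinh l * β) :
    d ≤ l - s * β + 3 * s ^ 2 / l := by
  have c1 : Real.cosh l + Real.sinh l * (d - l) ≤ Real.cosh d := by
    have e1 := Real.add_one_le_exp (d - l)
    have e2 := Real.add_one_le_exp (-(d - l))
    have e3 : Real.exp d = Real.exp l * Real.exp (d - l) := by rw [← Real.exp_add]; ring_nf
    have e4 : Real.exp (-d) = Real.exp (-l) * Real.exp (-(d - l)) := by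
      rw [← Real.exp_add]; ring_nf
    rw [Real.cosh_eq, Real.cosh_eq, Real.sinh_eq, e3, e4]
    nlinarith [mul_le_mul_of_nonneg_left e1 (Real.exp_pos l).le,
      mul_le_mul_of_nonneg_left e2 (Real.exp_pos (-l)).le]
  have b : ∀ u : ℝ, 0 ≤ u → u ≤ 1 → Real.cosh u ≤ 1 + u ^ 2 ∧ Real.sinh u ≤ u + u ^ 2 := by
    intro u h0 h1
    have e1 := abs_le.1 (Real.abs_exp_sub_one_sub_id_le (x := u) (by rwa [abs_of_nonneg h0]))
    have e2 := abs_le.1 (Real.abs_exp_sub_one_sub_id_le (x := -u) (by rwa [abs_neg, abs_of_nonneg h0]))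
    rw [Real.cosh_eq, Real.sinh_eq]
    constructor <;> nlinarith
  have s1 : s ≤ Real.sinh s := Real.self_le_sinh_iff.2 hs
  have l1 : l ≤ Real.sinh l := Real.self_le_sinh_iff.2 hl.le
  have b1 := b s hs hs1
  have b2 : Real.cosh l ≤ 2 := by nlinarith [(b l hl.le hl1).1]
  have b3 := Real.one_le_cosh s
  have hβ' := abs_le.1 hβ
  have p : 0 < Real.sinh l := hl.trans_le l1
  have q1 : s ^ 2 ≤ s ^ 2 / l := by rw [le_div_iff₀ hl]; nlinarith [sq_nonneg s]
  have q2 : s ^ 2 ≤ Real.sinh l * (s ^ 2 / l) := by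
    rw [← mul_div_assoc, le_div_iff₀ hl]; nlinarith [sq_nonneg s]
  have q3 : -(Real.sinh s * β) ≤ -(s * β) + s ^ 2 / l := by nlinarith
  have q4 : (Real.cosh s - 1) * Real.cosh l ≤ 2 * s ^ 2 := by nlinarith [Real.cosh_pos l]
  refine le_of_mul_le_mul_left ?_ p
  have q5 := mul_le_mul_of_nonneg_left q3 p.le
  have e : 3 * s ^ 2 / l = 3 * (s ^ 2 / l) := by ring
  rw [e]
  nlinarith

variable {E : Type} [NormedAddCommGroup E] [NormedSpace ℝ E]
  {M : Type} [TopologicalSpace M] [ChartedSpace E M] {g : Ten E M} {U : Set M}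

theorem dd_eq {x y : M} (h : ed g U x y ≠ ⊤) : ed g U x y = ENNReal.ofReal (dd g U x y) :=
  (ENNReal.ofReal_toReal h).symm

theorem ed_ne {x y z : M} {r s : ℝ} (hy : y ∈ bl g U x r) (hz : z ∈ bl g U x s) :
    ed g U y z ≠ ⊤ := by
  have := ed_triangle (g := g) (U := U) y x z
  rw [ed_comm (x := y) (y := x)] at this
  exact ne_top_of_le_ne_top (ENNReal.add_ne_top.2 ⟨hy.ne_top, hz.ne_top⟩) this

theorem dd_lt {x y : M} {r : ℝ} (hy : y ∈ bl g U x r) : dd g U x y < r :=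
  ENNReal.toReal_lt_of_lt_ofReal hy

theorem mem_bl {x y : M} {r : ℝ} (h : ed g U x y ≠ ⊤) (hr : dd g U x y < r) : y ∈ bl g U x r := by
  show ed g U x y < _
  rw [dd_eq h]
  exact (ENNReal.ofReal_lt_ofReal_iff_of_nonneg ENNReal.toReal_nonneg).2 hr

theorem dd_tri {x y z : M} (h1 : ed g U x y ≠ ⊤) (h2 : ed g U y z ≠ ⊤) :
    dd g U x z ≤ dd g U x y + dd g U y z := by
  rw [dd, dd, dd, ← ENNReal.toReal_add h1 h2]
  exact ENNReal.toReal_mono (ENNReal.add_ne_top.2 ⟨h1, h2⟩) (ed_triangle x y z)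

theorem bl_sub {x p : M} {a s r : ℝ} (hp : p ∈ bl g U x a) (h : dd g U x p + s ≤ r) :
    bl g U p s ⊆ bl g U x r := fun z hz =>
  mem_bl (ne_top_of_le_ne_top (ENNReal.add_ne_top.2 ⟨hp.ne_top, hz.ne_top⟩) (ed_triangle x p z))
    (by linarith [dd_tri hp.ne_top hz.ne_top, dd_lt hz])

theorem isCompact_le {K : Set M} (hK : IsCompact K) {f : M → ℝ} (hf : ContinuousOn f K) (c : ℝ) :
    IsCompact {y | y ∈ K ∧ f y ≤ c} := by
  have := isCompact_iff_compactSpace.1 hK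
  have h := ((isClosed_le (continuousOn_iff_continuous_domRestrict.1 hf)
    (continuous_const (y := c))).isCompact).image continuous_subtype_val
  convert h using 1
  ext y
  exact ⟨fun h => ⟨⟨y, h.1⟩, h.2, rfl⟩, fun ⟨z, hz, e⟩ => e ▸ ⟨z.2, hz⟩⟩

theorem contOn_of_lip (hN : ∀ p ∈ U, ∀ r > 0, bl g U p r ∈ 𝓝 p) {K : Set M} (hK : K ⊆ U)
    {φ : M → ℝ} {C : ℝ} (hC : 0 < C) (h : ∀ x ∈ K, ∀ y ∈ K, φ x - φ y ≤ C * dd g U x y) :
    ContinuousOn φ K := fun p hp => Metric.tendsto_nhds.2 fun ε hε => by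
  filter_upwards [mem_nhdsWithin_of_mem_nhds (hN p (hK hp) (ε / C) (by positivity)),
    self_mem_nhdsWithin] with y h1 h2
  have e1 := h p hp y h2
  have e2 := h y h2 p hp
  rw [dd, ed_comm] at e2
  have e3 := (lt_div_iff₀' hC).1 (dd_lt h1)
  rw [Real.dist_eq, abs_lt]
  exact ⟨by linarith, e2.trans_lt e3⟩

theorem cpt_centre (hN : ∀ p ∈ U, ∀ r > 0, bl g U p r ∈ 𝓝 p) {x p : M} {a s r : ℝ}
    (hc : Cpt g U x r) (hp : p ∈ bl g U x a) (hs : 0 < s) (h : dd g U x p + s ≤ r) :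
    Cpt g U p s := by
  intro t ht
  wlog h0 : 0 ≤ t
  · have e : cbl g U p t = cbl g U p 0 := by
      simp only [cbl, ENNReal.ofReal_of_nonpos (not_le.1 h0).le, ENNReal.ofReal_zero]
    exact e ▸ this hN hc hp hs h 0 hs le_rfl
  have hd : 0 ≤ dd g U x p := ENNReal.toReal_nonneg
  have fin : ∀ y ∈ cbl g U x (dd g U x p + t), y ∈ bl g U x r := fun y hy =>
    lt_of_le_of_lt hy ((ENNReal.ofReal_lt_ofReal_iff_of_nonneg (by linarith)).2 (by linarith))
  have hK := isCompact_le (hc (dd g U x p + t) (by linarith)) (f := dd g U p)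
    (contOn_of_lip hN (fun y hy => (mem_of_ed_ne (fin y hy).ne_top).2) one_pos fun y hy z hz => by
      have := dd_tri (ed_ne hp (fin z hz)) (ed_ne (fin z hz) (fin y hy))
      rw [dd, dd, dd, ed_comm (x := z) (y := y)] at this
      unfold dd; linarith) t
  convert hK using 1
  ext y
  refine ⟨fun hy => ⟨?_, ENNReal.toReal_le_of_le_ofReal h0 hy⟩, fun hy => ?_⟩
  · refine (ed_triangle x p y).trans ?_
    rw [ENNReal.ofReal_add hd h0, ← dd_eq hp.ne_top]
    exact add_le_add le_rfl hy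
  · show ed g U p y ≤ _
    rw [dd_eq (ed_ne hp (fin y hy.1))]
    exact ENNReal.ofReal_le_ofReal hy.2

theorem MinGeo.sub {γ : ℝ → M} {L s : ℝ} (h : MinGeo g U γ L) (h0 : 0 ≤ s) (hs : s ≤ L) :
    MinGeo g U γ s := by
  obtain ⟨ε, hε, h1, h2⟩ := h.geo
  have e : Ioo (-ε) (s + ε) ⊆ Ioo (-ε) (L + ε) := Ioo_subset_Ioo le_rfl (by linarith)
  have e' : Icc 0 s ⊆ Icc 0 L := Icc_subset_Icc le_rfl hs
  exact ⟨h0, ⟨ε, hε, ⟨h1.cont.mono e, fun a t ht => h1.eqn a t (e ht)⟩, h2.mono_left e⟩,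
    fun t ht => h.unit t (e' ht), fun a ha b hb => h.min a (e' ha) b (e' hb)⟩

theorem abs_le_one {B : Bil E} (hs : ∀ v w, B v w = B w v) (hp : ∀ v, 0 ≤ B v v) {v u : E}
    (hv : B v v = 1) (hu : B u u = 1) : |B v u| ≤ 1 := by
  have h1 := hp (v + u)
  have h2 := hp (v - u)
  simp only [map_add, map_sub, add_apply, sub_apply, hv, hu, hs u v] at h1 h2
  rw [abs_le]; constructor <;> linarith

theorem Met.nonneg (hg : Met g U) {q : M} (hq : q ∈ U) (v : E) : 0 ≤ g q v v := by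
  rcases eq_or_ne v 0 with rfl | h
  · simp
  · exact (hg.pos q hq v h).le

theorem unit_of_min {γ : ℝ → M} {L : ℝ} (h : MinGeo g U γ L) :
    g (γ 0) (vel E γ 0) (vel E γ 0) = 1 :=
  Real.sqrt_eq_one.1 (h.unit 0 ⟨le_rfl, h.nonneg⟩)

/-- the hinge structure of a small ball -/
def hgOf (hN : NB) (hH : HR) (hT : HINGE) {M : Type} [TopologicalSpace M] [ChartedSpace E3 M]
    [IsManifold 𝓘(ℝ, E3) ∞ M] {g : Ten E3 M} {U : Set M} {x : M} {r : ℝ} (hg : Met g U)
    (hU : Hs U) (hr : 0 < r) (hx : x ∈ U) (hc : Cpt g U x r)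
    (hs : ∀ y ∈ bl g U x r, SecGe g y (-(1 / r ^ 2))) : Hg M E3 where
  Ω := bl g U x (r / 10)
  o := x
  R := r / 10
  d := dd g U
  B := g
  S q v a := ∃ γ, MinGeo g U γ (dd g U q a) ∧ γ 0 = q ∧ γ (dd g U q a) = a ∧ vel E3 γ 0 = v
  o_mem := (ed_self hx).trans_lt (ENNReal.ofReal_pos.2 (by positivity))
  symm _ _ := by rw [dd, dd, ed_comm]
  nonneg _ _ := ENNReal.toReal_nonneg
  self y hy := by rw [dd, ed_self (mem_of_ed_ne hy.ne_top).2]; rfl
  tri _ h1 _ h2 _ h3 := dd_tri (ed_ne h1 h2) (ed_ne h2 h3)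
  B_symm q hq := hg.symm q (mem_of_ed_ne hq.ne_top).2
  B_pos q hq := Met.nonneg hg (mem_of_ed_ne hq.ne_top).2
  unit q v a := by rintro ⟨γ, h, rfl, -, rfl⟩; exact unit_of_min h
  ex q hq a ha _ := by
    have t := dd_tri (ed_ne hq ((ed_self hx).trans_lt (ENNReal.ofReal_pos.2 hr))) ha.ne_top
    rw [dd, dd, ed_comm (x := q) (y := x)] at t
    obtain ⟨γ, h⟩ := hH M g U q (r / 2) hg hU (cpt_centre (hN M g U hg hU) hc hq (by positivity)
      (by linarith [dd_lt hq])) a (mem_bl (ed_ne hq ha) (by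
        have := dd_lt hq; have := dd_lt ha; unfold dd at *; linarith))
    exact ⟨_, γ, h.1, h.2.1, h.2.2, rfl⟩
  sub q hq a ha v s := by
    rintro ⟨γ, h, h0, h1, rfl⟩ hs0 hs1 hs2
    have e1 := h.min 0 ⟨le_rfl, h.nonneg⟩ s ⟨hs0.le, hs1⟩
    have e2 := h.min s ⟨hs0.le, hs1⟩ _ ⟨h.nonneg, le_rfl⟩
    rw [h0, zero_sub, abs_neg, abs_of_pos hs0] at e1
    rw [h1, abs_of_nonpos (by linarith), neg_sub] at e2
    have e3 : dd g U q (γ s) = s := by rw [dd, e1, ENNReal.toReal_ofReal hs0.le]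
    have f1 : ed g U q (γ s) ≠ ⊤ := e1 ▸ ENNReal.ofReal_ne_top
    refine ⟨γ s, mem_bl (ne_top_of_le_ne_top (ENNReal.add_ne_top.2 ⟨hq.ne_top, f1⟩)
      (ed_triangle x q _)) (by linarith [dd_tri hq.ne_top f1]), ⟨γ, ?_, h0, ?_, rfl⟩, e3, ?_⟩
    · rw [e3]; exact MinGeo.sub h hs0.le hs1
    · rw [e3]
    · rw [dd, e2, ENNReal.toReal_ofReal (by linarith)]
  top q hq z hz a ha v u := by
    rintro ⟨c₁, h1, a1, b1, rfl⟩ ⟨c₂, h2, a2, b2, rfl⟩ hl
    have hx' : x ∈ bl g U x r := (ed_self hx).trans_lt (ENNReal.ofReal_pos.2 hr)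
    have bd : ∀ y ∈ bl g U x (r / 10), dd g U q y ≤ r / 5 := fun y hy => by
      have t := dd_tri (ed_ne hq hx') hy.ne_top
      rw [dd, dd, ed_comm (x := q) (y := x)] at t
      have := dd_lt hq; have := dd_lt hy; unfold dd at *; linarith
    have hqU := (mem_of_ed_ne hq.ne_top).2
    have h := hT M g U q (4 * r / 5) (1 / r) hg hU (cpt_centre (hN M g U hg hU) hc hq
      (by positivity) (by linarith [dd_lt hq])) (by positivity) (fun y hy => by
        rw [one_div_pow]; exact hs y (bl_sub hq (by linarith [dd_lt hq]) hy)) c₁ c₂ _ _ h1 h2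
      a1 a2 (by linarith [bd z hz]) (by linarith [bd a ha])
    rw [b1, b2] at h
    have hk : ∀ y ∈ bl g U x (r / 10), 1 / r * dd g U q y ≤ 1 := fun y hy => by
      rw [one_div, inv_mul_le_iff₀ hr]; linarith [bd y hy]
    have h' := t1_of_cosh (mul_nonneg (by positivity) h1.nonneg) (hk z hz) (by positivity) (hk a ha)
      (abs_le_one (hg.symm q hqU) (Met.nonneg hg hqU) (a1 ▸ unit_of_min h1)
        (a2 ▸ unit_of_min h2)) h
    refine le_of_mul_le_mul_left (h'.trans_eq ?_) (one_div_pos.2 hr)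
    field_simp

theorem reset_of (hN : NB) (hH : HR) (hT : HINGE) {K C : ℝ} (hK : 0 < K) (hC : 0 < C)
    (hB : BG K) (hL : LIP C) : RESET := by
  refine ⟨1 / (216 * C) / K, by positivity, fun w hw => ?_⟩
  obtain ⟨θ, hθ, H⟩ := reset_abs (v := w / K / 8 / K) (C := K) (by positivity) hK.le
  refine ⟨min (θ / 10) (1 / 20), lt_min (by positivity) (by norm_num), min_le_right _ _, ?_⟩
  intro M _ _ _ _ _ g U x r hg hU hr hc hs hV
  have hx : x ∈ U := by
    by_contra h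
    have e : bl g U x r = ∅ := eq_empty_of_forall_notMem fun y hy =>
      h (mem_of_ed_ne hy.ne_top).1
    rw [Vl, e, measure_empty] at hV
    exact absurd hV (not_le.2 (ENNReal.ofReal_pos.2 (by positivity)))
  have hN' := hN M g U hg hU
  have hs' : ∀ y ∈ bl g U x r, SecGe g y (-(1 / r) ^ 2) := fun y hy => by
    rw [one_div_pow]; exact hs y hy
  have bg : ∀ p ∈ bl g U x (r / 10), ∀ s t, 0 < s → s ≤ t → t ≤ r / 2 →
      (∀ w, Vl w g U p t → Vl (w / K) g U p s) ∧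
        vol g (bl g U p s) ≤ ENNReal.ofReal (K * s ^ 3) := fun p hp =>
    hB M g U p (r / 2) (1 / r) hg hU (mem_of_ed_ne hp.ne_top).2
      (cpt_centre hN' hc hp (by positivity) (by linarith [dd_lt hp])) (by positivity)
      (by rw [one_div, inv_mul_le_iff₀ hr]; linarith)
      fun y hy => hs' y (bl_sub hp (by linarith [dd_lt hp]) hy)
  have hbl : ∀ p ∈ bl g U x (r / 10), ∀ s, dd g U x p + s ≤ r / 10 →
      (hgOf hN hH hT hg hU hr hx hc hs).bl p s = bl g U p s := fun p hp s h =>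
    Subset.antisymm (fun z hz => mem_bl (ed_ne hp hz.1) hz.2)
      fun z hz => ⟨bl_sub hp h hz, dd_lt hz⟩
  have v1 := (hB M g U x r (1 / r) hg hU hx hc (by positivity) (by field_simp; rfl) hs' (r / 4) r
    (by positivity) (by linarith) le_rfl).1 w hV
  obtain ⟨y, hy, ρ, h1, h2, a, ha, h3⟩ := H (hgOf hN hH hT hg hU hr hx hc hs) (vol g)
    (by show 0 < r / 10; positivity) (fun p hp h1 s h2 h3 => by
      change dd g U x p < r / 10 / 2 at h1
      change s ≤ r / 10 / 2 at h3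
      rw [hbl p hp s (by linarith)]
      have hx' : x ∈ bl g U p (r / 10) := ed_comm.trans_lt hp
      have v2 : Vl (w / K / 8) g U p (r / 2) := by
        refine le_trans (le_of_eq ?_) (v1.trans (measure_mono
          (bl_sub hx' (by linarith [dd_lt hx']))))
        congr 1; ring
      exact ⟨(bg p hp s (r / 2) h2 (by linarith) le_rfl).1 _ v2,
        (bg p hp s (r / 2) h2 (by linarith) le_rfl).2⟩)
    (fun p hp ρ h0 h1 φ hφ => by
      change dd g U x p + ρ < r / 10 at h1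
      have hsub : cbl g U p ρ ⊆ bl g U x (r / 10) := fun z hz =>
        bl_sub (s := r / 10 - dd g U x p) hp (by linarith) (lt_of_le_of_lt hz
          ((ENNReal.ofReal_lt_ofReal_iff_of_nonneg h0).2 (by linarith)))
      have e : (hgOf hN hH hT hg hU hr hx hc hs).cb p ρ = cbl g U p ρ :=
        Subset.antisymm (fun z hz => by
          show ed g U p z ≤ _
          rw [dd_eq (ed_ne hp hz.1)]; exact ENNReal.ofReal_le_ofReal hz.2)
          fun z hz => ⟨hsub hz, ENNReal.toReal_le_of_le_ofReal h0 hz⟩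
      rw [e]
      have hd : 0 ≤ dd g U x p := ENNReal.toReal_nonneg
      obtain ⟨q, hq, hm⟩ := (cpt_centre hN' hc hp (s := r / 2) (by positivity) (by linarith) ρ
        (by linarith)).exists_isMinOn (f := φ)
        ⟨p, (ed_self (mem_of_ed_ne hp.ne_top).2).trans_le zero_le⟩
        (contOn_of_lip hN' (fun z hz => (mem_of_ed_ne (hsub hz).ne_top).2) (C := 4) (by norm_num)
          fun a ha b hb => hφ a (hsub ha) b (hsub hb))
      exact ⟨q, hq, hm⟩)
  change θ * (r / 10) ≤ ρ at h1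
  change dd g U x y + ρ ≤ r / 10 / 2 at h2
  have hρ : 0 < ρ := lt_of_lt_of_le (by positivity) h1
  have hd : 0 ≤ dd g U x y := ENNReal.toReal_nonneg
  rw [hbl y hy ρ (by linarith)] at h3
  have h4 := h3.trans (hL M g U y ρ hg hU (cpt_centre hN' hc hy (s := r / 2) (by positivity)
    (by linarith) ρ (by linarith)) _ fun p hp q hq i =>
      Hg.lip (H := hgOf hN hH hT hg hU hr hx hc hs) (ha i) (bl_sub hy (by linarith) hp)
        (bl_sub hy (by linarith) hq))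
  have v3 : Vl (1 / (216 * C)) g U y ρ := by
    rw [Vl, show 1 / (216 * C) * ρ ^ 3 = (ρ / 6) ^ 3 / C by field_simp; norm_num,
      ENNReal.ofReal_div_of_pos hC]
    exact ENNReal.div_le_of_le_mul' h4
  refine ⟨y, mem_bl hy.ne_top (by linarith), fun s h0 h5 => (bg y hy s ρ h0 ?_ (by linarith)).1 _ v3⟩
  nlinarith [mul_le_mul_of_nonneg_right (min_le_left (θ / 10) (1 / 20)) hr.le]

end Vale.Agent.P216RS
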