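import Mathlib

/-!
# P216RS: strainers in an abstract space with hinges

`Hg X V` collects the facts on distances and directions of minimising geodesics that are used to
find, inside a ball of positive volume ratio, a smaller ball with a universal volume ratio.
-/

open Set

noncomputable section

namespace Vale.Agent.P216RS

/-- distances and directions of segments in a ball `Ω` of radius `R` about `o` -/
structure Hg (X V : Type) [NormedAddCommGroup V] [NormedSpace ℝ V] where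
  Ω : Set X
  o : X
  R : ℝ
  d : X → X → ℝ
  B : X → V →L[ℝ] V →L[ℝ] ℝ
  S : X → V → X → Prop
  o_mem : o ∈ Ω
  symm : ∀ x y, d x y = d y x
  nonneg : ∀ x y, 0 ≤ d x y
  self : ∀ x ∈ Ω, d x x = 0
  tri : ∀ x ∈ Ω, ∀ y ∈ Ω, ∀ z ∈ Ω, d x z ≤ d x y + d y z
  B_symm : ∀ q ∈ Ω, ∀ v w, B q v w = B q w v
  B_pos : ∀ q ∈ Ω, ∀ v, 0 ≤ B q v v
  unit : ∀ q v a, S q v a → B q v v = 1
  ex : ∀ q ∈ Ω, ∀ a ∈ Ω, 0 < d q a → ∃ v, S q v a
  sub : ∀ q ∈ Ω, ∀ a ∈ Ω, ∀ v s, S q v a → 0 < s → s ≤ d q a → d o q + s < R →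
    ∃ z ∈ Ω, S q v z ∧ d q z = s ∧ d z a = d q a - s
  top : ∀ q ∈ Ω, ∀ z ∈ Ω, ∀ a ∈ Ω, ∀ v u, S q v z → S q u a → 0 < d q a →
    d z a ≤ d q a - d q z * B q v u + 3 * d q z ^ 2 / d q a

namespace Hg

variable {X V : Type} [NormedAddCommGroup V] [NormedSpace ℝ V] (H : Hg X V)

/-- open ball -/
def bl (p : X) (r : ℝ) : Set X := {z | z ∈ H.Ω ∧ H.d p z < r}

/-- closed ball -/
def cb (p : X) (r : ℝ) : Set X := {z | z ∈ H.Ω ∧ H.d p z ≤ r}

/-- the pair `a, b` is seen under an angle close to `π` from all points of `D` -/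
def Str (D : Set X) (L : ℝ) (a b : X) : Prop :=
  a ∈ H.Ω ∧ b ∈ H.Ω ∧ ∀ q ∈ D, L ≤ H.d q a ∧ L ≤ H.d q b ∧
    ∀ v u, H.S q v a → H.S q u b → H.B q v u ≤ -1 + 1 / 5000

/-- the points `a, a'` are seen under an angle close to `π / 2` from all points of `D` -/
def Ort (D : Set X) (a a' : X) : Prop :=
  ∀ q ∈ D, ∀ v u, H.S q v a → H.S q u a' → |H.B q v u| ≤ 1 / 10

variable {H}

theorem lip {a x y : X} (ha : a ∈ H.Ω) (hx : x ∈ H.Ω) (hy : y ∈ H.Ω) :
    |H.d a x - H.d a y| ≤ H.d x y := by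
  have h1 := H.tri a ha x hx y hy
  have h2 := H.tri a ha y hy x hx
  rw [H.symm y x] at h2
  rw [abs_le]; constructor <;> linarith

theorem cs {q : X} (hq : q ∈ H.Ω) {w v u : V} (hw : H.B q w w = 1) (hv : H.B q v v = 1)
    (hu : H.B q u u = 1) (h : H.B q v u ≤ -1 + 1 / 5000) : |H.B q w v + H.B q w u| ≤ 1 / 50 := by
  have h1 := H.B_pos q hq ((1 / 50 : ℝ) • w + (v + u))
  have h2 := H.B_pos q hq ((1 / 50 : ℝ) • w - (v + u))
  simp only [map_add, map_sub, map_smul, add_apply, sub_apply, smul_apply, smul_eq_mul, hw, hv, hu,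
    H.B_symm q hq v w, H.B_symm q hq u w, H.B_symm q hq u v] at h1 h2
  rw [abs_le]; constructor <;> linarith

theorem Str.mono {D D' : Set X} {L L' : ℝ} {a b : X} (h : H.Str D L a b) (hD : D' ⊆ D)
    (hL : L' ≤ L) : H.Str D' L' a b :=
  ⟨h.1, h.2.1, fun q hq => ⟨hL.trans (h.2.2 q (hD hq)).1, hL.trans (h.2.2 q (hD hq)).2.1,
    (h.2.2 q (hD hq)).2.2⟩⟩

theorem Ort.mono {D D' : Set X} {a a' : X} (h : H.Ort D a a') (hD : D' ⊆ D) : H.Ort D' a a' :=
  fun q hq => h q (hD hq)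

theorem top' {q z a : X} (hq : q ∈ H.Ω) (hz : z ∈ H.Ω) (ha : a ∈ H.Ω) {v u : V} (hv : H.S q v z)
    (hu : H.S q u a) {L : ℝ} (hL : 0 < L) (hL' : L ≤ H.d q a) (hs : H.d q z ≤ L / 1000) :
    H.d a z ≤ H.d a q - H.d q z * H.B q v u + 3 / 1000 * H.d q z := by
  have h := H.top q hq z hz a ha v u hv hu (hL.trans_le hL')
  have h0 := H.nonneg q z
  have h1 : 3 * H.d q z ^ 2 / H.d q a ≤ 3 / 1000 * H.d q z := by
    rw [div_le_iff₀ (hL.trans_le hL')]
    nlinarith [mul_le_mul_of_nonneg_left (hs.trans (by linarith : L / 1000 ≤ H.d q a / 1000)) h0]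
  rw [H.symm a z, H.symm a q]
  linarith

/-- distance functions of a strained pair are almost linear -/
theorem Str.lin {D : Set X} (hD : D ⊆ H.Ω) {L : ℝ} (hL : 0 < L) {a b : X} (h : H.Str D L a b)
    {q x : X} (hq : q ∈ D) (hx : x ∈ D) {v u : V} (hv : H.S q v x) (hu : H.S q u a)
    (hs : H.d q x ≤ L / 1000) :
    |H.d a x - H.d a q + H.d q x * H.B q v u| ≤ 3 / 50 * H.d q x := by
  have ha := h.1
  have hb := h.2.1
  rcases (H.nonneg q x).eq_or_lt with h0 | h0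
  · have := lip ha (hD hx) (hD hq)
    rw [H.symm x q, ← h0] at this
    rw [← h0]; simpa using this
  obtain ⟨hqa, hqb, hq'⟩ := h.2.2 q hq
  obtain ⟨hxa, hxb, hx'⟩ := h.2.2 x hx
  obtain ⟨u', hu'⟩ := H.ex q (hD hq) b hb (hL.trans_le hqb)
  obtain ⟨v1, hv1⟩ := H.ex x (hD hx) q (hD hq) (by rwa [H.symm])
  obtain ⟨u1, hu1⟩ := H.ex x (hD hx) a ha (hL.trans_le hxa)
  obtain ⟨u2, hu2⟩ := H.ex x (hD hx) b hb (hL.trans_le hxb)
  have e1 := top' (hD hq) (hD hx) ha hv hu hL hqa hs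
  have e2 := top' (hD hq) (hD hx) hb hv hu' hL hqb hs
  have hs' : H.d x q ≤ L / 1000 := by rwa [H.symm]
  have e3 := top' (hD hx) (hD hq) ha hv1 hu1 hL hxa hs'
  have e4 := top' (hD hx) (hD hq) hb hv1 hu2 hL hxb hs'
  rw [H.symm x q] at e3 e4
  have c1 := abs_le.1 (cs (hD hq) (H.unit _ _ _ hv) (H.unit _ _ _ hu) (H.unit _ _ _ hu')
    (hq' u u' hu hu'))
  have c2 := abs_le.1 (cs (hD hx) (H.unit _ _ _ hv1) (H.unit _ _ _ hu1) (H.unit _ _ _ hu2)
    (hx' u1 u2 hu1 hu2))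
  have m1 := mul_le_mul_of_nonneg_left c1.1 h0.le
  have m2 := mul_le_mul_of_nonneg_left c2.1 h0.le
  rw [abs_le]; constructor <;> nlinarith

/-- near the midpoint of a segment the end points form a strained pair -/
theorem str_mid {x y z : X} (hx : x ∈ H.Ω) (hy : y ∈ H.Ω) (hz : z ∈ H.Ω) {l : ℝ} (hl : 0 < l)
    (hxz : H.d x z = l) (hzy : H.d z y = l) (hxy : H.d x y = 2 * l) (hR : H.d H.o z + l ≤ H.R) :
    H.Str (H.bl z (l / 40000 ^ 2)) (l / 2) x y := by
  refine ⟨hx, hy, fun q hq => ?_⟩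
  obtain ⟨hq, hd⟩ := hq
  have t1 := abs_le.1 (lip hx hq hz)
  have t2 := abs_le.1 (lip hy hq hz)
  rw [H.symm q z, H.symm x q] at t1
  rw [H.symm q z, H.symm y q, H.symm y z] at t2
  have hqx : l / 2 ≤ H.d q x := by linarith [t1.1]
  have hqy : l / 2 ≤ H.d q y := by linarith [t2.1]
  refine ⟨hqx, hqy, fun v u hv hu => ?_⟩
  have t3 := H.tri H.o H.o_mem z hz q hq
  obtain ⟨x', hx', hS, h1, h2⟩ := H.sub q hq x hx v (l / 40000) hv (by positivity) (by linarith)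
    (by linarith)
  have e := H.top q hq x' hx' y hy v u hS hu (by linarith)
  have t4 := H.tri x hx x' hx' y hy
  rw [H.symm x x', h2] at t4
  rw [h1] at e
  have h3 : 3 * (l / 40000) ^ 2 / H.d q y ≤ 6 / 40000 * (l / 40000) := by
    rw [div_le_iff₀ (by linarith)]; nlinarith
  have h4 : l / 40000 * H.B q v u ≤ l / 40000 * (-1 + 1 / 5000) := by linarith [t1.2, t2.2]
  exact le_of_mul_le_mul_left h4 (by positivity)

/-- the new pair is almost orthogonal to an old one -/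
theorem ort_new {D D' : Set X} (hD : D ⊆ H.Ω) (hD' : D' ⊆ D) {L L' : ℝ} (hL : 0 < L)
    (hL' : 0 < L') {a b x y : X} (h : H.Str D L a b) (h' : H.Str D' L' x y) (hx : x ∈ D)
    (hy : y ∈ D) (hs : ∀ q ∈ D, ∀ p ∈ D, H.d q p ≤ L / 1000)
    (hf : |H.d a x - H.d a y| ≤ 1 / 50 * H.d x y) : H.Ort D' x a := by
  intro q hq v u hv hu
  have hq1 := hD' hq
  obtain ⟨hqx, hqy, hq'⟩ := h'.2.2 q hq
  obtain ⟨w, hw⟩ := H.ex q (hD hq1) y (hD hy) (hL'.trans_le hqy)
  have e1 := abs_le.1 (h.lin hD hL hq1 hx hv hu (hs q hq1 x hx))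
  have e2 := abs_le.1 (h.lin hD hL hq1 hy hw hu (hs q hq1 y hy))
  have c := abs_le.1 (cs (hD hq1) (H.unit _ _ _ hu) (H.unit _ _ _ hv) (H.unit _ _ _ hw)
    (hq' v w hv hw))
  rw [H.B_symm q (hD hq1) u v, H.B_symm q (hD hq1) u w] at c
  have t := H.tri x (hD hx) q (hD hq1) y (hD hy)
  rw [H.symm x q] at t
  have hf' := abs_le.1 hf
  have p1 : 0 < H.d q x := hL'.trans_le hqx
  have p2 : 0 < H.d q y := hL'.trans_le hqy
  have m1 := mul_le_mul_of_nonneg_left c.1 p2.le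
  have m2 := mul_le_mul_of_nonneg_left c.2 p2.le
  have p3 : 0 < H.d q x + H.d q y := by linarith
  rw [abs_le]
  constructor
  · refine le_of_mul_le_mul_left ?_ p3
    nlinarith
  · refine le_of_mul_le_mul_left ?_ p3
    nlinarith

/-- three almost orthogonal strained pairs give a map that is onto a ball -/
theorem onto {p : X} (hp : p ∈ H.Ω) {r L : ℝ} (hr : 0 < r) (hL : 0 < L)
    (hR : H.d H.o p + r ≤ H.R) {a b : Fin 3 → X} (h : ∀ i, H.Str (H.bl p r) L (a i) (b i))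
    (ho : ∀ i j, i ≠ j → H.Ort (H.bl p r) (a i) (a j))
    (hmin : ∀ φ : X → ℝ, (∀ x ∈ H.Ω, ∀ y ∈ H.Ω, φ x - φ y ≤ 4 * H.d x y) →
      ∃ q ∈ H.cb p (r / 2), ∀ y ∈ H.cb p (r / 2), φ q ≤ φ y)
    {z : Fin 3 → ℝ} (hz : ∀ i, |H.d (a i) p - z i| < r / 12) :
    ∃ q ∈ H.bl p r, ∀ i, H.d (a i) q = z i := by
  have hD : H.bl p r ⊆ H.Ω := fun _ h => h.1
  obtain ⟨q, ⟨hq, hpq⟩, hm⟩ := hmin (fun y => ∑ i, |H.d (a i) y - z i| + H.d p y / 2) (by
    intro x hx y hy
    have e : ∀ i, |H.d (a i) x - z i| - |H.d (a i) y - z i| ≤ H.d x y := fun i => by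
      refine (abs_sub_abs_le_abs_sub _ _).trans ?_
      simpa using lip (h i).1 hx hy
    have e' := abs_le.1 (lip hp hx hy)
    have := H.nonneg x y
    simp only [Fin.sum_univ_three]
    linarith [e 0, e 1, e 2, e'.2])
  have hqD : q ∈ H.bl p r := ⟨hq, by linarith⟩
  refine ⟨q, hqD, fun i => ?_⟩
  by_contra hne
  have hlt : H.d p q < r / 2 := by
    have := hm p ⟨hp, by rw [H.self p hp]; linarith⟩
    simp only [Fin.sum_univ_three, H.self p hp] at this
    linarith [hz 0, hz 1, hz 2, abs_nonneg (H.d (a 0) q - z 0), abs_nonneg (H.d (a 1) q - z 1),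
      abs_nonneg (H.d (a 2) q - z 2)]
  have hpos : 0 < |H.d (a i) q - z i| := abs_pos.2 (sub_ne_zero.2 hne)
  obtain ⟨s, hs0, hs1, hs2, hs3⟩ : ∃ s, 0 < s ∧ s ≤ |H.d (a i) q - z i| ∧ s ≤ L / 1000 ∧
      s ≤ r / 2 - H.d p q :=
    ⟨min |H.d (a i) q - z i| (min (L / 1000) (r / 2 - H.d p q)),
      lt_min hpos (lt_min (by positivity) (by linarith)), min_le_left _ _,
      (min_le_right _ _).trans (min_le_left _ _), (min_le_right _ _).trans (min_le_right _ _)⟩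
  choose u hu using fun j => H.ex q hq (a j) (h j).1 (hL.trans_le ((h j).2.2 q hqD).1)
  have t3 := H.tri H.o H.o_mem p hp q hq
  have key : ∀ c v, c ∈ H.Ω → L ≤ H.d q c → H.S q v c → (∀ j, j ≠ i → |H.B q v (u j)| ≤ 6 / 50) →
      (∀ y ∈ H.Ω, H.d q y = s → |H.d (a i) y - H.d (a i) q + s * H.B q v (u i)| ≤ 3 / 50 * s →
        |H.d (a i) y - z i| ≤ |H.d (a i) q - z i| - 9 / 10 * s) → False := by
    intro c v hc hLc hv h1 h2
    obtain ⟨y, hy, hS, e1, -⟩ := H.sub q hq c hc v s hv hs0 (by linarith) (by linarith)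
    have t4 := H.tri p hp q hq y hy
    have hyD : y ∈ H.bl p r := ⟨hy, by linarith⟩
    have hl := fun j => (h j).lin hD hL hqD hyD hS (hu j) (by linarith)
    rw [e1] at hl
    have hb : ∀ j, |H.d (a j) y - z j| ≤ |H.d (a j) q - z j| +
        (if j = i then -(9 / 10 * s) else 9 / 50 * s) := by
      intro j
      split_ifs with hj
      · subst hj; linarith [h2 y hy e1 (hl j)]
      · have b1 := abs_le.1 (hl j)
        have b2 := abs_le.1 (h1 j hj)
        have b3 : |H.d (a j) y - H.d (a j) q| ≤ 9 / 50 * s := by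
          rw [abs_le]; constructor <;> nlinarith
        have b4 := abs_sub_abs_le_abs_sub (H.d (a j) y - z j) (H.d (a j) q - z j)
        rw [sub_sub_sub_cancel_right] at b4
        linarith
    have hsum := Finset.sum_le_sum (s := Finset.univ) fun j _ => hb j
    have hc : ∑ j : Fin 3, (if j = i then -(9 / 10 * s) else 9 / 50 * s) = -(27 / 50 * s) := by
      fin_cases i <;> simp [Fin.sum_univ_three] <;> ring
    rw [Finset.sum_add_distrib, hc] at hsum
    have := hm y ⟨hy, by linarith⟩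
    linarith
  rcases lt_or_gt_of_ne hne with hlt' | hgt
  · obtain ⟨w, hw⟩ := H.ex q hq (b i) (h i).2.1 (hL.trans_le ((h i).2.2 q hqD).2.1)
    have hB := ((h i).2.2 q hqD).2.2 (u i) w (hu i) hw
    refine key (b i) w (h i).2.1 ((h i).2.2 q hqD).2.1 hw (fun j hj => ?_) fun y hy e1 e2 => ?_
    · have c := abs_le.1 (cs hq (H.unit _ _ _ (hu j)) (H.unit _ _ _ (hu i)) (H.unit _ _ _ hw) hB)
      have o := abs_le.1 (ho j i hj q hqD _ _ (hu j) (hu i))
      rw [H.B_symm q hq w, abs_le]; constructor <;> linarith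
    · have l1 := abs_le.1 (lip (h i).1 hy hq)
      rw [H.symm y q, e1] at l1
      rw [abs_of_neg (sub_neg.2 hlt')] at hs1 ⊢
      rw [H.B_symm q hq w] at e2
      have e3 := abs_le.1 e2
      have m := mul_le_mul_of_nonneg_left hB hs0.le
      rw [abs_of_nonpos (by linarith)]
      linarith
  · refine key (a i) (u i) (h i).1 ((h i).2.2 q hqD).1 (hu i) (fun j hj => ?_) fun y hy e1 e2 => ?_
    · exact (ho i j hj.symm q hqD _ _ (hu i) (hu j)).trans (by norm_num)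
    · have l1 := abs_le.1 (lip (h i).1 hy hq)
      rw [H.symm y q, e1] at l1
      rw [abs_of_pos (sub_pos.2 hgt)] at hs1 ⊢
      rw [H.unit _ _ _ (hu i)] at e2
      have e3 := abs_le.1 e2
      rw [abs_of_nonneg (by linarith)]
      linarith

end Hg

end Vale.Agent.P216RS
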