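import Vale.Agent.P216RS.Abs

/-!
# P216RS: three strainer steps give a ball with a universal volume ratio
-/

open Set MeasureTheory
open scoped ENNReal

noncomputable section

namespace Vale.Agent.P216RS

namespace Hg

variable {X V : Type} [NormedAddCommGroup V] [NormedSpace ℝ V] {H : Hg X V}

theorem pack [MeasurableSpace X] (μ : Measure X) {p : X} {ρ η A b : ℝ} (hη : 0 < η) (hb : 0 ≤ b)
    (hA : ENNReal.ofReal A ≤ μ (H.bl p ρ))
    (hB : ∀ y ∈ H.bl p ρ, μ (H.bl y η) ≤ ENNReal.ofReal b) (n : ℕ) (hn : ((n : ℝ) - 1) * b < A)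
    (hA0 : 0 < A) : ∃ S : Finset X, S.card = n ∧ ↑S ⊆ H.bl p ρ ∧
      ∀ x ∈ S, ∀ y ∈ S, x ≠ y → η ≤ H.d x y := by
  classical
  induction n with
  | zero => exact ⟨∅, rfl, by simp, by simp⟩
  | succ n ih =>
    have hn' : (n : ℝ) * b < A := by simpa using hn
    obtain ⟨S, hc, hS, hs⟩ := ih (by nlinarith)
    have hne : ¬ H.bl p ρ ⊆ ⋃ y ∈ S, H.bl y η := fun hsub => by
      have h1 : μ (H.bl p ρ) ≤ ∑ y ∈ S, ENNReal.ofReal b :=
        (measure_mono hsub).trans ((measure_biUnion_finset_le _ _).trans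
          (Finset.sum_le_sum fun y hy => hB y (hS hy)))
      rw [Finset.sum_const, hc, nsmul_eq_mul, ← ENNReal.ofReal_natCast,
        ← ENNReal.ofReal_mul (by positivity)] at h1
      exact absurd (hA.trans h1) (not_le.2 ((ENNReal.ofReal_lt_ofReal_iff hA0).2 hn'))
    obtain ⟨x, hx, hx'⟩ := not_subset.1 hne
    have hd : ∀ y ∈ S, η ≤ H.d y x := fun y hy =>
      not_lt.1 fun h => hx' (mem_biUnion hy ⟨hx.1, h⟩)
    have hxS : x ∉ S := fun h => by have := hd x h; rw [H.self x hx.1] at this; linarith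
    refine ⟨insert x S, by rw [Finset.card_insert_of_notMem hxS, hc], ?_, ?_⟩
    · rw [Finset.coe_insert]; exact insert_subset hx hS
    · intro y hy z hz hyz
      rcases Finset.mem_insert.1 hy with rfl | hy' <;> rcases Finset.mem_insert.1 hz with rfl | hz'
      · exact absurd rfl hyz
      · rw [H.symm]; exact hd z hz'
      · exact hd y hy'
      · exact hs y hy' z hz' hyz

theorem pigeon {S : Finset X} {f₁ f₂ : X → ℝ} {K : ℕ} {t : ℝ} (ht : 0 < t)
    (h1 : ∀ x ∈ S, 0 ≤ f₁ x ∧ f₁ x < K * t) (h2 : ∀ x ∈ S, 0 ≤ f₂ x ∧ f₂ x < K * t)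
    (hc : K * K < S.card) : ∃ x ∈ S, ∃ y ∈ S, x ≠ y ∧ |f₁ x - f₁ y| ≤ t ∧ |f₂ x - f₂ y| ≤ t := by
  have hm : ∀ u : ℝ, 0 ≤ u ∧ u < K * t → ⌊u / t⌋₊ ∈ Finset.range K := fun u hu =>
    Finset.mem_range.2 ((Nat.floor_lt (div_nonneg hu.1 ht.le)).2 ((div_lt_iff₀ ht).2 hu.2))
  have he : ∀ u w : ℝ, 0 ≤ u → 0 ≤ w → ⌊u / t⌋₊ = ⌊w / t⌋₊ → |u - w| ≤ t := fun u w hu hw h => by
    have a1 := (le_div_iff₀ ht).1 (Nat.floor_le (div_nonneg hu ht.le))
    have a2 := (le_div_iff₀ ht).1 (Nat.floor_le (div_nonneg hw ht.le))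
    have a3 := (div_lt_iff₀ ht).1 (Nat.lt_floor_add_one (u / t))
    have a4 := (div_lt_iff₀ ht).1 (Nat.lt_floor_add_one (w / t))
    rw [h] at a1 a3
    rw [abs_le]; constructor <;> linarith
  obtain ⟨x, hx, y, hy, hxy, h⟩ := Finset.exists_ne_map_eq_of_card_lt_of_maps_to
    (s := S) (t := Finset.range K ×ˢ Finset.range K) (by simpa using hc)
    (f := fun x => (⌊f₁ x / t⌋₊, ⌊f₂ x / t⌋₊))
    (fun x hx => Finset.mem_coe.2 (Finset.mem_product.2 ⟨hm _ (h1 x hx), hm _ (h2 x hx)⟩))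
  exact ⟨x, hx, y, hy, hxy, he _ _ (h1 x hx).1 (h1 y hy).1 (congrArg Prod.fst h),
    he _ _ (h2 x hx).1 (h2 y hy).1 (congrArg Prod.snd h)⟩

variable (H) in
/-- the ball `B(p, r)` is strained by `m` almost orthogonal pairs -/
structure St (m : ℕ) (p : X) (r L : ℝ) (a b : ℕ → X) : Prop where
  mem : p ∈ H.Ω
  pos : 0 < r
  rad : H.d H.o p + r ≤ H.R / 2
  small : 2 * r ≤ L / 1000
  amem : ∀ i, a i ∈ H.Ω
  str : ∀ i < m, H.Str (H.bl p r) L (a i) (b i)
  ort : ∀ j < m, ∀ i < j, H.Ort (H.bl p r) (a j) (a i)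

variable (H) in
/-- two sided volume bounds for small balls -/
def Vb [MeasurableSpace X] (μ : Measure X) (v C : ℝ) : Prop :=
  ∀ p ∈ H.Ω, H.d H.o p < H.R / 2 → ∀ s, 0 < s → s ≤ H.R / 2 →
    ENNReal.ofReal (v * s ^ 3) ≤ μ (H.bl p s) ∧ μ (H.bl p s) ≤ ENNReal.ofReal (C * s ^ 3)

theorem St.step [MeasurableSpace X] {μ : Measure X} {v C : ℝ} (hv : 0 < v) (hC : 0 ≤ C)
    (hV : H.Vb μ v C) {K : ℕ} (hK : 50 ≤ K) (hK' : 64 * 50 ^ 3 * C < v * K) {m : ℕ} (hm : m ≤ 2)
    {p : X} {r L : ℝ} {a b : ℕ → X} (h : H.St m p r L a b) :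
    ∃ p' r' L' a' b', H.St (m + 1) p' r' L' a' b' ∧ r / (K * 40000 ^ 2) ≤ r' := by
  classical
  have hr := h.pos
  have hp := h.mem
  have hK0 : (50 : ℝ) ≤ K := by exact_mod_cast hK
  have h0 := H.nonneg H.o p
  have hrad := h.rad
  have hη : 50 * r / K ≤ r := by rw [div_le_iff₀ (by linarith)]; nlinarith
  have hη0 : 0 < 50 * r / K := by positivity
  obtain ⟨S, hc, hS, hs⟩ := pack μ (p := p) (ρ := r / 4) (η := 50 * r / K) (A := v * (r / 4) ^ 3)
    (b := C * (50 * r / K) ^ 3) hη0 (by positivity)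
    (hV p hp (by linarith) _ (by positivity) (by linarith)).1
    (fun y hy => (hV y hy.1 (by linarith [H.tri _ H.o_mem p hp y hy.1, hy.2]) _ hη0
      (by linarith)).2) (K * K + 1) (by
      have e : ((K * K + 1 : ℕ) - 1 : ℝ) * (C * (50 * r / K) ^ 3) = r ^ 3 * (50 ^ 3 * C / K) := by
        push_cast; field_simp; ring
      have e2 : 50 ^ 3 * C / K < v / 64 := by rw [div_lt_iff₀ (by linarith)]; linarith
      rw [e]; nlinarith [pow_pos hr 3]) (by positivity)
  have hf : ∀ i, ∀ x ∈ S, 0 ≤ H.d (a i) x - H.d (a i) p + r / 4 ∧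
      H.d (a i) x - H.d (a i) p + r / 4 < K * (r / K) := fun i x hx => by
    have := abs_le.1 (lip (h.amem i) hp (hS hx).1)
    have e : (K : ℝ) * (r / K) = r := by field_simp
    rw [e]; constructor <;> linarith [(hS hx).2]
  obtain ⟨x, hx, y, hy, hxy, f0, f1⟩ := pigeon (by positivity) (hf 0) (hf 1) (by omega)
  have hd := hs x hx y hy hxy
  obtain ⟨hx, hpx⟩ := hS hx
  obtain ⟨hy, hpy⟩ := hS hy
  have t1 := H.tri x hx p hp y hy
  rw [H.symm x p] at t1
  obtain ⟨w, hw⟩ := H.ex x hx y hy (by linarith)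
  obtain ⟨z, hz, -, e1, e2⟩ := H.sub x hx y hy w (H.d x y / 2) hw (by linarith) (by linarith)
    (by linarith [H.tri _ H.o_mem p hp x hx])
  set l := H.d x y / 2 with hl
  have hl0 : 0 < l := by linarith
  have t2 := H.tri p hp x hx z hz
  have t3 := H.tri _ H.o_mem p hp z hz
  have hS' := str_mid hx hy hz hl0 e1 (by linarith) (by linarith) (by linarith)
  have hsub : H.bl z (l / 40000 ^ 2) ⊆ H.bl p r := fun q hq =>
    ⟨hq.1, by linarith [H.tri p hp z hz q hq.1, hq.2]⟩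
  have hfi : ∀ i < m, |H.d (a i) x - H.d (a i) y| ≤ 1 / 50 * H.d x y := fun i hi => by
    have e : r / K ≤ 1 / 50 * H.d x y := by
      have : 50 * r / K = 50 * (r / K) := by ring
      linarith
    have hi' : i = 0 ∨ i = 1 := by omega
    rcases hi' with rfl | rfl
    · simpa using f0.trans e
    · simpa using f1.trans e
  have hsm := h.small
  refine ⟨z, l / 40000 ^ 2, l / 2, Function.update a m x, Function.update b m y,
    ⟨hz, by positivity, by linarith, by linarith, fun i => ?_, fun i hi => ?_,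
      fun j hj i hi => ?_⟩, ?_⟩
  · rcases eq_or_ne i m with rfl | hi
    · simpa using hx
    · simpa [hi] using h.amem i
  · rcases eq_or_ne i m with rfl | hi'
    · simpa using hS'
    · simpa [hi'] using (h.str i (by omega)).mono hsub (by linarith)
  · have hi' : i ≠ m := by omega
    rcases eq_or_ne j m with rfl | hj'
    · simp only [Function.update_self, Function.update_of_ne hi']
      refine ort_new (fun _ h => h.1) hsub (by linarith) (by linarith) (h.str i hi) hS'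
        ⟨hx, by linarith⟩ ⟨hy, by linarith⟩ (fun q hq q' hq' => ?_) (hfi i hi)
      have := H.tri q hq.1 p hp q' hq'.1
      rw [H.symm q p] at this
      linarith [hq.2, hq'.2]
    · simp only [Function.update_of_ne hi', Function.update_of_ne hj']
      exact (h.ort j (by omega) i hi).mono hsub
  · rw [← div_div]
    have : 50 * r / K = 50 * (r / K) := by ring
    have : 0 < r / K := by positivity
    gcongr
    linarith

end Hg

/-- the abstract reset lemma -/
theorem reset_abs {v C : ℝ} (hv : 0 < v) (hC : 0 ≤ C) : ∃ θ > 0,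
    ∀ {X V : Type} [NormedAddCommGroup V] [NormedSpace ℝ V] [MeasurableSpace X] (H : Hg X V)
      (μ : Measure X), 0 < H.R → H.Vb μ v C →
      (∀ p ∈ H.Ω, ∀ ρ, 0 ≤ ρ → H.d H.o p + ρ < H.R → ∀ φ : X → ℝ,
        (∀ x ∈ H.Ω, ∀ y ∈ H.Ω, φ x - φ y ≤ 4 * H.d x y) →
        ∃ q ∈ H.cb p ρ, ∀ y ∈ H.cb p ρ, φ q ≤ φ y) →
      ∃ y ∈ H.Ω, ∃ r, θ * H.R ≤ r ∧ H.d H.o y + r ≤ H.R / 2 ∧ ∃ a : Fin 3 → X, (∀ i, a i ∈ H.Ω) ∧
        ENNReal.ofReal ((r / 6) ^ 3) ≤ volume ((fun x i => H.d (a i) x) '' H.bl y r) := by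
  obtain ⟨K, hK⟩ := exists_nat_gt (max 50 (64 * 50 ^ 3 * C / v))
  have hK1 : 50 ≤ K := by exact_mod_cast ((le_max_left _ _).trans_lt hK).le
  have hK2 : 64 * 50 ^ 3 * C < v * K := by
    have := (div_lt_iff₀ hv).1 ((le_max_right _ _).trans_lt hK); linarith
  have hK0 : (0 : ℝ) < K * 40000 ^ 2 := by
    have : (50 : ℝ) ≤ K := by exact_mod_cast hK1
    positivity
  refine ⟨1 / 2 / (K * 40000 ^ 2) / (K * 40000 ^ 2) / (K * 40000 ^ 2), by positivity, ?_⟩
  intro X V _ _ _ H μ hR hV hmin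
  have h0 : H.St 0 H.o (H.R / 2) (1000 * H.R) (fun _ => H.o) (fun _ => H.o) :=
    ⟨H.o_mem, by positivity, by rw [H.self _ H.o_mem]; linarith, by linarith,
      fun _ => H.o_mem, by simp, by simp⟩
  obtain ⟨p1, r1, L1, a1, b1, h1, e1⟩ := h0.step hv hC hV hK1 hK2 (by norm_num)
  obtain ⟨p2, r2, L2, a2, b2, h2, e2⟩ := h1.step hv hC hV hK1 hK2 (by norm_num)
  obtain ⟨p, r, L, a, b, h, e3⟩ := h2.step hv hC hV hK1 hK2 (by norm_num)
  have hr := h.pos
  have hrad := h.rad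
  refine ⟨p, h.mem, r, ?_, hrad, fun i => a i, fun i => h.amem i, ?_⟩
  · refine le_trans (le_of_eq (b := H.R / 2 / (K * 40000 ^ 2) / (K * 40000 ^ 2) /
      (K * 40000 ^ 2)) (by ring)) ?_
    exact le_trans (by gcongr; exact le_trans (by gcongr) e2) e3
  have hsub : Metric.ball (fun i : Fin 3 => H.d (a i) p) (r / 12) ⊆
      (fun x (i : Fin 3) => H.d (a i) x) '' H.bl p r := fun z hz => by
    obtain ⟨q, hq, hq'⟩ := Hg.onto h.mem hr (L := L) (by linarith [h.small]) (by linarith)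
      (a := fun i => a i) (b := fun i => b i) (fun i => h.str i i.2) (fun i j hij => by
        rcases lt_or_gt_of_ne hij with hl | hl
        · intro q hq v u hv hu
          rw [H.B_symm q hq.1]
          exact h.ort j j.2 i hl q hq u v hu hv
        · exact h.ort i i.2 j hl) (hmin p h.mem _ (by linarith) (by linarith)) (z := z)
      (fun i => by
        have := (dist_pi_lt_iff (by positivity)).1 (Metric.mem_ball'.1 hz) i
        rwa [Real.dist_eq] at this)
    exact ⟨q, hq, funext hq'⟩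
  refine le_trans (le_of_eq ?_) (measure_mono hsub)
  rw [Real.volume_pi_ball _ (by positivity)]
  simp only [Fintype.card_fin]
  congr 1; ring

end Vale.Agent.P216RS
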